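import Vale.Agent.P181.TS.Spec
import Vale.Agent.P181.H310.Lb6

set_option autoImplicit false

/-!
# P181, TS: [TS-LBX], the lower bound for `b` letters of degree `k`, rows of polylogarithmic number
(`DesAll → MatG → DesShort → MatT → LBX`)
-/

namespace Vale.Agent.P181.TS.H963

open Finset
open Vale.Agent.P181 Vale.Agent.P181.H280 Vale.Agent.P181.H463 Vale.Agent.P181.H59
open Vale.Agent.P181.H914 Vale.Agent.P181.H310

/-- one instance. -/
theorem lbx_one {δ c : ℝ} (hδ : 0 < δ) (hc : c = δ / (1 + δ)) {C1 a b : ℕ}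
    (ha : 0 < a) (hab : (1 + δ) * a ≤ b) (hb2 : b ≤ a ^ 2)
    (horb : ∀ m N : ℕ, Real.log a ^ (C1 + 2) ≤ m → m ≤ a →
      ((b : ℝ) / m) * Real.log b ^ C1 ≤ N →
      ∀ len : Fin N → ℕ, (∀ c, m ≤ len c ∧ len c ≤ 2 * m ∧ len c ≤ a) →
      ∀ (n k : ℕ) (lam η : Fin n → ℕ), (∀ c, len c ≤ n) → Antitone η →
        (∀ i : Fin n, (univ.filter fun c => (i : ℕ) < len c).card + η i = lam i) →
        ∑ i, lam i = k * b →
        gt n b η ≤ ((∑ i, η i) + b - 1).choose (b - 1) * (b.factorial * plethMult b k n lam))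
    (hla : 1 ≤ Real.log a) (hlB : (28 / c + 8) * 2 ^ (C1 + 1) < Real.log a)
    {k n l : ℕ} (lam : Fin n → ℕ) (hn : n ≤ a) (hk : k ≤ a) (hlam : Antitone lam)
    (hsum : ∑ i, lam i = k * b) (hl1 : Real.log a ^ (C1 + 2) ≤ l) (hl2 : l ≤ n)
    (hlM : (b : ℝ) * Real.log a ^ (C1 + 2) ≤ l * T4.ex lam (l - 1)) :
    (gt n a lam : ℝ) * Real.exp (2 * b) ≤ plethMult b k n lam := by
  have haR : (0 : ℝ) < a := by exact_mod_cast ha
  have ha1R : (1 : ℝ) ≤ a := by exact_mod_cast ha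
  have habR : (a : ℝ) < b := by nlinarith
  have hab' : a + 1 ≤ b := by exact_mod_cast habR
  have hb : 0 < b := by omega
  have hbR : (0 : ℝ) < b := by exact_mod_cast hb
  have hc0 : 0 < c := by rw [hc]; positivity
  have hcb : c * b ≤ (b : ℝ) - a := by
    have h1 : (1 - c) * (1 + δ) = 1 := by
      rw [hc]
      field_simp
      ring
    have hc1 : c ≤ 1 := by
      rw [hc, div_le_one (by linarith)]
      linarith
    have h2 : (a : ℝ) = (1 - c) * ((1 + δ) * a) := by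
      rw [← mul_assoc, h1, one_mul]
    have h3 : (1 - c) * ((1 + δ) * a) ≤ (1 - c) * b :=
      mul_le_mul_of_nonneg_left hab (by linarith)
    linarith
  obtain ⟨L, hL⟩ : ∃ L : ℝ, L = Real.log b := ⟨_, rfl⟩
  have hL1 : Real.log a ≤ L := by
    rw [hL]
    exact Real.log_le_log haR habR.le
  have hL1' : 1 ≤ L := hla.trans hL1
  have hL2 : L ≤ 2 * Real.log a := by
    rw [hL]
    have h1 : Real.log b ≤ Real.log ((a : ℝ) ^ 2) :=
      Real.log_le_log hbR (by exact_mod_cast hb2)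
    rw [Real.log_pow] at h1
    exact_mod_cast h1
  have hlR : (0 : ℝ) < l := lt_of_lt_of_le (pow_pos (by linarith) _) hl1
  have hl0 : 0 < l := by exact_mod_cast hlR
  have hbl : 1 ≤ (b : ℝ) / l := by
    rw [le_div_iff₀ hlR, one_mul]
    exact_mod_cast (by omega : l ≤ b)
  have hLC : 1 ≤ L ^ C1 := one_le_pow₀ hL1'
  have hbl0 : 0 < (b : ℝ) / l := by positivity
  -- the number of marker columns
  obtain ⟨N, hNdef⟩ : ∃ N : ℕ, N = ⌈(b : ℝ) / l * L ^ C1⌉₊ := ⟨_, rfl⟩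
  have hN1 : (b : ℝ) / l * L ^ C1 ≤ N := by rw [hNdef]; exact Nat.le_ceil _
  have hN2 : (N : ℝ) ≤ 2 * ((b : ℝ) / l * L ^ C1) := by
    have h1 : (N : ℝ) < (b : ℝ) / l * L ^ C1 + 1 := by
      rw [hNdef]; exact Nat.ceil_lt_add_one (by positivity)
    have h2 : 1 ≤ (b : ℝ) / l * L ^ C1 := by
      calc (1 : ℝ) = 1 * 1 := by ring
        _ ≤ _ := mul_le_mul hbl hLC (by norm_num) hbl0.le
    linarith
  have hNpos : 0 < N := by
    have h1 : (0 : ℝ) < N := lt_of_lt_of_le (by positivity) hN1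
    exact_mod_cast h1
  -- the windows
  obtain ⟨K0, hK0⟩ : ∃ K0 : ℕ, K0 = ⌈14 * L / c⌉₊ := ⟨_, rfl⟩
  have hK0a : 14 * L / c ≤ K0 := by rw [hK0]; exact Nat.le_ceil _
  have hK0b : (K0 : ℝ) < 14 * L / c + 1 := by
    rw [hK0]; exact Nat.ceil_lt_add_one (by positivity)
  obtain ⟨J, hJ⟩ : ∃ J : ℕ, J = ⌈2 * L⌉₊ := ⟨_, rfl⟩
  have hJa : 2 * L ≤ J := by rw [hJ]; exact Nat.le_ceil _
  have hJb : (J : ℝ) < 2 * L + 1 := by rw [hJ]; exact Nat.ceil_lt_add_one (by positivity)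
  have hpow : a < 2 ^ (K0 + J - K0) := by
    rw [Nat.add_sub_cancel_left]
    have h1 : (b : ℝ) ≤ 2 ^ J := by
      have h2 : L ≤ (J : ℝ) * Real.log 2 := by
        have h3 : (0.6931471803 : ℝ) < Real.log 2 := Real.log_two_gt_d9
        have h4 : (J : ℝ) * 0.6931471803 ≤ J * Real.log 2 :=
          mul_le_mul_of_nonneg_left h3.le (Nat.cast_nonneg _)
        linarith
      have h5 := Real.exp_le_exp.2 h2
      rw [hL, Real.exp_log hbR, Real.exp_nat_mul, Real.exp_log (by norm_num)] at h5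
      exact h5
    have h2 : (a : ℝ) < 2 ^ J := lt_of_lt_of_le habR h1
    exact_mod_cast h2
  have hKN : ((K0 + J : ℕ) : ℝ) * N ≤
      (28 / c + 8) * 2 ^ (C1 + 1) * Real.log a ^ (C1 + 1) * ((b : ℝ) / l) := by
    have h1 : ((K0 + J : ℕ) : ℝ) ≤ (14 / c + 4) * L := by
      push_cast
      have : (14 / c + 4) * L = 14 * L / c + 4 * L := by ring
      linarith
    calc ((K0 + J : ℕ) : ℝ) * N ≤ ((14 / c + 4) * L) * (2 * ((b : ℝ) / l * L ^ C1)) :=
          mul_le_mul h1 hN2 (Nat.cast_nonneg _) (by positivity)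
      _ = (28 / c + 8) * L ^ (C1 + 1) * ((b : ℝ) / l) := by rw [pow_succ]; ring
      _ ≤ (28 / c + 8) * (2 * Real.log a) ^ (C1 + 1) * ((b : ℝ) / l) := by gcongr
      _ = _ := by rw [mul_pow]; ring
  have h0 : 0 < Real.log a := by linarith
  have hlε : (28 / c + 8) * 2 ^ (C1 + 1) * Real.log a ^ (C1 + 1) ≤ l := by
    refine le_trans ?_ hl1
    rw [pow_succ (Real.log a) (C1 + 1), mul_comm (Real.log a ^ (C1 + 1))]
    exact mul_le_mul_of_nonneg_right hlB.le (by positivity)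
  have hKb : (K0 + J) * N ≤ b := by
    have h1 : ((K0 + J : ℕ) : ℝ) * N ≤ b := by
      refine hKN.trans ?_
      calc (28 / c + 8) * 2 ^ (C1 + 1) * Real.log a ^ (C1 + 1) * ((b : ℝ) / l)
          ≤ l * ((b : ℝ) / l) := mul_le_mul_of_nonneg_right hlε hbl0.le
        _ = b := by field_simp
    exact_mod_cast h1
  have hKM : (K0 + J) * N < T4.ex lam (l - 1) := by
    have h1 : ((K0 + J : ℕ) : ℝ) * N < T4.ex lam (l - 1) := by
      calc ((K0 + J : ℕ) : ℝ) * N
          ≤ (28 / c + 8) * 2 ^ (C1 + 1) * Real.log a ^ (C1 + 1) * ((b : ℝ) / l) := hKN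
        _ < Real.log a * Real.log a ^ (C1 + 1) * ((b : ℝ) / l) := by
            apply mul_lt_mul_of_pos_right _ hbl0
            exact mul_lt_mul_of_pos_right hlB (by positivity)
        _ = (b * Real.log a ^ (C1 + 2)) / l := by rw [pow_succ (Real.log a) (C1 + 1)]; ring
        _ ≤ T4.ex lam (l - 1) := by
            rw [div_le_iff₀ hlR, mul_comm (T4.ex lam (l - 1) : ℝ)]
            exact hlM
    exact_mod_cast h1
  have hcl : l ≤ cj lam ((K0 + J) * N) := by
    have h1 : (l - 1 : ℕ) < n := by omega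
    rw [T4.ex, dif_pos h1] at hKM
    have h2 := (lt_cj hlam ⟨l - 1, h1⟩ ((K0 + J) * N)).2 hKM
    simp only at h2
    omega
  obtain ⟨κ, hκ0, hκ1, hκw⟩ := exists_window (cj lam) a K0 (K0 + J) N (by omega)
    ((cj_le lam _).trans hn) (by omega) hpow
  obtain ⟨m, hm⟩ : ∃ m : ℕ, m = cj lam ((κ + 1) * N) := ⟨_, rfl⟩
  rw [← hm] at hκw
  have hlm : l ≤ m := by
    rw [hm]
    exact hcl.trans (cj_anti lam (Nat.mul_le_mul_right _ (by omega)))
  have hmn : m ≤ n := by rw [hm]; exact cj_le lam _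
  have hmR : (0 : ℝ) < m := by exact_mod_cast (by omega : 0 < m)
  have hlmR : (l : ℝ) ≤ m := by exact_mod_cast hlm
  have hlen1 : ∀ c : Fin N, m ≤ cj lam (κ * N + c) := by
    intro c
    rw [hm]
    refine cj_anti lam ?_
    rw [Nat.add_mul, Nat.one_mul]
    have := c.2
    omega
  have hlen2 : ∀ c : Fin N, cj lam (κ * N + c) ≤ 2 * m := by
    intro c
    exact (cj_anti lam (Nat.le_add_right _ _)).trans hκw
  have hbm : (b : ℝ) / m ≤ (b : ℝ) / l := div_le_div_of_nonneg_left hbR.le hlR hlmR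
  have hmat := horb m N (hl1.trans hlmR) (hmn.trans hn) (by
      rw [← hL]
      exact (mul_le_mul_of_nonneg_right hbm (by positivity)).trans hN1)
    (fun c => cj lam (κ * N + c)) (fun c => ⟨hlen1 c, hlen2 c, (cj_le lam _).trans hn⟩)
    n k lam (et lam κ N) (fun c => cj_le lam _) (et_anti hlam κ N) (by
      intro i
      simp only [lt_cj hlam]
      exact card_win (lam i) κ N) hsum
  have hkN : κ * N ≤ b := (Nat.mul_le_mul_right _ hκ1.le).trans hKb
  have hs : ∑ i, et lam κ N i ≤ a * b := by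
    have h1 : ∑ i, et lam κ N i ≤ ∑ i, lam i := by
      refine Finset.sum_le_sum fun i _ => ?_
      have := card_win (lam i) κ N
      simp only [et]
      omega
    exact h1.trans (by rw [hsum]; exact Nat.mul_le_mul_right _ hk)
  have hmN : b ≤ m * N := by
    have h1 : (b : ℝ) ≤ m * N := by
      calc (b : ℝ) = m * ((b : ℝ) / m) := by field_simp
        _ ≤ m * ((b : ℝ) / l * 1) := by
            rw [mul_one]
            exact mul_le_mul_of_nonneg_left hbm hmR.le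
        _ ≤ m * ((b : ℝ) / l * L ^ C1) := by gcongr
        _ ≤ m * N := mul_le_mul_of_nonneg_left hN1 hmR.le
    exact_mod_cast h1
  refine compareLB hlam hn ha (by omega) hm hlen2
    (numLB hab' hs hcb hc0.le hmN hkN (by rw [← hL]; exact hL1') ?_) hmat
  rw [← hL]
  have h1 : (K0 : ℝ) ≤ κ := by exact_mod_cast hκ0
  have h2 : 14 * L / c ≤ κ := hK0a.trans h1
  rw [div_le_iff₀ hc0] at h2
  linarith

/-- The number condition of `DesShort`. -/
theorem log2_le {a b m C : ℕ} (hb : 0 < b) (hb2 : b ≤ a ^ 2) (hC : 3 ≤ C)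
    (hL : 2000 ≤ Real.log a) (hm : Real.log a ^ C ≤ m) : 256 * (Nat.log 2 b + 4) ≤ m := by
  have hbR : (0 : ℝ) < b := by exact_mod_cast hb
  have h1 : (Nat.log 2 b : ℝ) * Real.log 2 ≤ Real.log b := by
    rw [← Real.log_pow]
    apply Real.log_le_log (by positivity)
    exact_mod_cast Nat.pow_log_le_self 2 hb.ne'
  have h2 : Real.log b ≤ 2 * Real.log a := by
    have h1 : Real.log b ≤ Real.log ((a : ℝ) ^ 2) :=
      Real.log_le_log hbR (by exact_mod_cast hb2)
    rw [Real.log_pow] at h1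
    exact_mod_cast h1
  have h3 : (0.6931471803 : ℝ) < Real.log 2 := Real.log_two_gt_d9
  have h4 : (Nat.log 2 b : ℝ) * 0.6931471803 ≤ Nat.log 2 b * Real.log 2 :=
    mul_le_mul_of_nonneg_left h3.le (Nat.cast_nonneg _)
  have h5 : (Nat.log 2 b : ℝ) ≤ 3 * Real.log a := by
    have : (0 : ℝ) ≤ Nat.log 2 b := Nat.cast_nonneg _
    nlinarith
  have h6 : Real.log a ^ 2 ≤ Real.log a ^ C :=
    pow_le_pow_right₀ (by linarith) (by omega)
  have h7 : (256 * ((Nat.log 2 b : ℝ) + 4)) ≤ m := by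
    refine le_trans ?_ (h6.trans hm)
    nlinarith
  exact_mod_cast h7

/-- **[TS-LBX]** -/
theorem lbxStep : LbxStep := by
  intro hD hM hDS hMT δ hδ
  obtain ⟨C2, b2, H2⟩ := hD (1 / 3) δ (by positivity) hδ
  obtain ⟨b1, H1⟩ := hDS
  obtain ⟨C1, hC1⟩ : ∃ C1 : ℕ, C1 = max C2 4 := ⟨_, rfl⟩
  have hC1a : C2 ≤ C1 := by rw [hC1]; exact le_max_left _ _
  have hC1b : 4 ≤ C1 := by rw [hC1]; exact le_max_right _ _
  refine ⟨C1 + 2, ?_⟩
  have hev : ∀ᶠ a : ℕ in Filter.atTop,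
      max ((28 / (δ / (1 + δ)) + 8) * 2 ^ (C1 + 1)) 2000 < Real.log a :=
    tendsto_natCast_atTop_atTop.eventually (Real.tendsto_log_atTop.eventually_gt_atTop _)
  filter_upwards [hev, Filter.eventually_ge_atTop (max b1 b2), Filter.eventually_ge_atTop 1] with a
    h1 ha0 ha k b n l lam hn hab hb2 hk hlam hsum hl1 hl2 hlM
  have haR : (1 : ℝ) ≤ a := by exact_mod_cast ha
  have habR : (a : ℝ) < b := by nlinarith
  have hab' : a < b := by exact_mod_cast habR
  have hb : 0 < b := by omega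
  have hbR : (0 : ℝ) < b := by exact_mod_cast hb
  have hL0 : 2000 < Real.log a := lt_of_le_of_lt (le_max_right _ _) h1
  have hLB : (28 / (δ / (1 + δ)) + 8) * 2 ^ (C1 + 1) < Real.log a :=
    lt_of_le_of_lt (le_max_left _ _) h1
  have hLab : Real.log a ≤ Real.log b := Real.log_le_log (by linarith) habR.le
  have hLb1 : 1 ≤ Real.log b := by linarith
  have hb1' : b1 ≤ b := (le_max_left _ _).trans (ha0.trans hab'.le)
  have hb2' : b2 ≤ b := (le_max_right _ _).trans (ha0.trans hab'.le)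
  refine lbx_one hδ rfl ha hab hb2 ?_ (by linarith) hLB lam hn hk hlam hsum hl1 hl2 hlM
  intro m N hm hma hN len hlen n' k' lam' η hln hη hadd hs
  have hbm : 0 ≤ (b : ℝ) / m := by positivity
  by_cases hc : m ^ 3 ≤ b
  · have hT : TDes b N len := by
      refine H1 b m N hb1' (log2_le hb hb2 (by omega) hL0.le hm) hc ?_ len
        fun c => ⟨(hlen c).1, (hlen c).2.1⟩
      exact (mul_le_mul_of_nonneg_left (pow_le_pow_right₀ hLb1 hC1b) hbm).trans hN
    exact hMT n' k' b N len lam' η hb hT hln hη hadd hs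
  · have hm3 : (b : ℝ) ^ ((1 : ℝ) / 3) ≤ m := by
      have h2 : (b : ℝ) ≤ (m : ℝ) ^ 3 := by exact_mod_cast (by omega : b ≤ m ^ 3)
      calc (b : ℝ) ^ ((1 : ℝ) / 3) ≤ ((m : ℝ) ^ 3) ^ ((1 : ℝ) / 3) :=
            Real.rpow_le_rpow hbR.le h2 (by norm_num)
        _ = m := by
            rw [← Real.rpow_natCast, ← Real.rpow_mul (Nat.cast_nonneg _)]
            norm_num
    obtain ⟨R, hRm, hd⟩ := H2 b a m N hb2' hab hm3 hma
      ((mul_le_mul_of_nonneg_left (pow_le_pow_right₀ hLb1 hC1a) hbm).trans hN) len hlen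
    exact hM n' k' b R N len lam' η hb hd (fun c => ⟨hRm.trans (hlen c).1, hln c⟩) hη hadd hs

end Vale.Agent.P181.TS.H963
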