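import Vale.Agent.P181.H12.S6Gen

/-!
# P181, TS: union bound in a finite product, many columns miss every target
-/

set_option autoImplicit false

namespace Vale.Agent.P181.TS.H963

open Finset Vale.Agent.P181.H59 Vale.Agent.P181.S6 Vale.Agent.P181.H12

section

variable {N b : ℕ} {Ω : Fin N → Type} [∀ c, Fintype (Ω c)]

open Classical in
/-- The samples for which at most `M` columns miss the target `T`. -/
theorem card_few (A : ∀ c, Ω c → Finset (Fin b)) (T : Finset (Fin b)) (x : ℝ) (M : ℕ)
    (h : ∀ c, x * Fintype.card (Ω c) ≤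
      ((univ.filter fun ω : Ω c => Disjoint (A c ω) T).card : ℝ)) :
    ((univ.filter fun ω : ∀ c, Ω c =>
      (univ.filter fun c => Disjoint (A c (ω c)) T).card ≤ M).card : ℝ) ≤
      2 ^ M * Real.exp (-(N * x / 2)) * ∏ c, (Fintype.card (Ω c) : ℝ) := by
  have h1 : ((univ.filter fun ω : ∀ c, Ω c =>
      (univ.filter fun c => Disjoint (A c (ω c)) T).card ≤ M).card : ℝ) ≤
      2 ^ M * ∑ ω : ∀ c, Ω c, ∏ c, (if Disjoint (A c (ω c)) T then (1 / 2 : ℝ) else 1) := by
    rw [card_filter, Nat.cast_sum, mul_sum]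
    apply sum_le_sum
    intro ω _
    have h2 : ∏ c, (if Disjoint (A c (ω c)) T then (1 / 2 : ℝ) else 1) =
        (1 / 2) ^ (univ.filter fun c => Disjoint (A c (ω c)) T).card := by
      rw [prod_ite, prod_const, prod_const_one, mul_one]
    rw [h2]
    split_ifs with h3
    · have h4 : (2 : ℝ) ^ M * (1 / 2) ^ M ≤
          2 ^ M * (1 / 2) ^ (univ.filter fun c => Disjoint (A c (ω c)) T).card := by
        apply mul_le_mul_of_nonneg_left _ (by positivity)
        exact pow_le_pow_of_le_one (by norm_num) (by norm_num) h3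
      refine le_trans (le_of_eq ?_) h4
      rw [← mul_pow]
      norm_num
    · push_cast
      positivity
  refine h1.trans ?_
  rw [mul_assoc]
  apply mul_le_mul_of_nonneg_left _ (by positivity)
  have h5 : ∑ ω : ∀ c, Ω c, ∏ c, (if Disjoint (A c (ω c)) T then (1 / 2 : ℝ) else 1) =
      ∏ c, ∑ ω : Ω c, (if Disjoint (A c ω) T then (1 / 2 : ℝ) else 1) := by
    rw [Finset.prod_univ_sum, Fintype.piFinset_univ]
  rw [h5]
  have h2 : ∀ c : Fin N, ∑ ω : Ω c, (if Disjoint (A c ω) T then (1 / 2 : ℝ) else 1) ≤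
      Real.exp (-(x / 2)) * (Fintype.card (Ω c) : ℝ) := by
    intro c
    have h3 : ((univ.filter fun ω : Ω c => Disjoint (A c ω) T).card : ℝ) +
        ((univ.filter fun ω : Ω c => ¬ Disjoint (A c ω) T).card : ℝ) =
        (Fintype.card (Ω c) : ℝ) := by
      have := Finset.card_filter_add_card_filter_not (s := (univ : Finset (Ω c)))
        (fun ω : Ω c => Disjoint (A c ω) T)
      rw [Finset.card_univ] at this
      exact_mod_cast this
    have h4 := h c
    have h5 := Real.add_one_le_exp (-(x / 2))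
    have h6 : (0 : ℝ) ≤ Fintype.card (Ω c) := Nat.cast_nonneg _
    rw [sum_ite, sum_const, sum_const, nsmul_eq_mul, nsmul_eq_mul]
    nlinarith [mul_le_mul_of_nonneg_right h5 h6]
  calc ∏ c, ∑ ω : Ω c, (if Disjoint (A c ω) T then (1 / 2 : ℝ) else 1) ≤
      ∏ c : Fin N, (Real.exp (-(x / 2)) * (Fintype.card (Ω c) : ℝ)) :=
        Finset.prod_le_prod (fun c _ => Finset.sum_nonneg fun ω _ => by split_ifs <;> norm_num)
          (fun c _ => h2 c)
    _ = Real.exp (-(N * x / 2)) * ∏ c, (Fintype.card (Ω c) : ℝ) := by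
        rw [Finset.prod_mul_distrib, Finset.prod_const, Finset.card_univ, Fintype.card_fin,
          ← Real.exp_nat_mul]
        congr 2
        ring

end

/-- **[TS-GEN]** -/
theorem genM (N b P : ℕ) (Ω : Fin N → Type) [∀ c, Fintype (Ω c)] [∀ c, Nonempty (Ω c)]
    (A : ∀ c, Ω c → Finset (Fin b)) (𝒯 : Finset (Finset (Fin b))) (x : Finset (Fin b) → ℝ)
    (M : Finset (Fin b) → ℕ) (q : ℝ) (hq : 0 ≤ q)
    (hmiss : ∀ c, ∀ T ∈ 𝒯, x T * Fintype.card (Ω c) ≤
      ((univ.filter fun ω : Ω c => Disjoint (A c ω) T).card : ℝ))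
    (hdeg : ∀ c p, ((univ.filter fun ω : Ω c => p ∈ A c ω).card : ℝ) ≤ q * Fintype.card (Ω c))
    (hlt : (∑ T ∈ 𝒯, 2 ^ M T * Real.exp (-(N * x T / 2))) +
      b * (3 * N * q / (P + 1)) ^ (P + 1) < 1) :
    ∃ ω : ∀ c, Ω c, (∀ T ∈ 𝒯, M T < (univ.filter fun c => Disjoint (A c (ω c)) T).card) ∧
      ∀ p, (univ.filter fun c => p ∈ A c (ω c)).card ≤ P := by
  classical
  by_contra hcon
  have hcon' : ∀ ω : ∀ c, Ω c, ¬ ((∀ T ∈ 𝒯, M T <
      (univ.filter fun c => Disjoint (A c (ω c)) T).card) ∧
      ∀ p, (univ.filter fun c => p ∈ A c (ω c)).card ≤ P) := fun ω h => hcon ⟨ω, h⟩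
  obtain ⟨W, hW⟩ : ∃ W : ℝ, W = ∏ c, (Fintype.card (Ω c) : ℝ) := ⟨_, rfl⟩
  have hWpos : 0 < W := by
    rw [hW]
    apply Finset.prod_pos
    intro c _
    exact_mod_cast Fintype.card_pos
  have hcov : (univ : Finset (∀ c, Ω c)) ⊆
      (𝒯.biUnion fun T => univ.filter fun ω : ∀ c, Ω c =>
        (univ.filter fun c => Disjoint (A c (ω c)) T).card ≤ M T) ∪
      (univ.biUnion fun p : Fin b => univ.filter fun ω : ∀ c, Ω c =>
        P + 1 ≤ (univ.filter fun c => p ∈ A c (ω c)).card) := by
    intro ω _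
    rw [mem_union, mem_biUnion, mem_biUnion]
    by_contra hno
    push Not at hno
    apply hcon' ω
    refine ⟨?_, ?_⟩
    · intro T hT
      have h1 := hno.1 T hT
      rw [mem_filter] at h1
      push Not at h1
      exact h1 (mem_univ _)
    · intro p
      have h1 := hno.2 p (mem_univ _)
      rw [mem_filter] at h1
      push Not at h1
      have := h1 (mem_univ _)
      omega
  have hcard : (((univ : Finset (∀ c, Ω c)).card : ℕ) : ℝ) = W := by
    rw [Finset.card_univ, Fintype.card_pi, hW]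
    push_cast
    rfl
  have h1 : W ≤ (∑ T ∈ 𝒯, 2 ^ M T * Real.exp (-(N * x T / 2)) * W) +
      ∑ _p : Fin b, (3 * N * q / (P + 1)) ^ (P + 1) * W := by
    calc W = (((univ : Finset (∀ c, Ω c)).card : ℕ) : ℝ) := hcard.symm
      _ ≤ (((𝒯.biUnion fun T => univ.filter fun ω : ∀ c, Ω c =>
            (univ.filter fun c => Disjoint (A c (ω c)) T).card ≤ M T) ∪
          (univ.biUnion fun p : Fin b => univ.filter fun ω : ∀ c, Ω c =>
            P + 1 ≤ (univ.filter fun c => p ∈ A c (ω c)).card)).card : ℝ) := by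
          exact_mod_cast Finset.card_le_card hcov
      _ ≤ ((𝒯.biUnion fun T => univ.filter fun ω : ∀ c, Ω c =>
            (univ.filter fun c => Disjoint (A c (ω c)) T).card ≤ M T).card : ℝ) +
          ((univ.biUnion fun p : Fin b => univ.filter fun ω : ∀ c, Ω c =>
            P + 1 ≤ (univ.filter fun c => p ∈ A c (ω c)).card).card : ℝ) := by
          exact_mod_cast Finset.card_union_le _ _
      _ ≤ (∑ T ∈ 𝒯, ((univ.filter fun ω : ∀ c, Ω c =>
            (univ.filter fun c => Disjoint (A c (ω c)) T).card ≤ M T).card : ℝ)) +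
          ∑ p : Fin b, ((univ.filter fun ω : ∀ c, Ω c =>
            P + 1 ≤ (univ.filter fun c => p ∈ A c (ω c)).card).card : ℝ) := by
          apply add_le_add
          · exact_mod_cast Finset.card_biUnion_le
          · exact_mod_cast Finset.card_biUnion_le
      _ ≤ _ := by
          apply add_le_add
          · apply Finset.sum_le_sum
            intro T hT
            rw [hW]
            exact card_few A T (x T) (M T) (fun c => hmiss c T hT)
          · apply Finset.sum_le_sum
            intro p _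
            refine (card_deg A p q hq (fun c => hdeg c p) (P + 1)).trans ?_
            rw [← hW]
            apply mul_le_mul_of_nonneg_right _ hWpos.le
            have h3 := choose_le_three N (P + 1) (Nat.succ_pos P)
            calc (N.choose (P + 1) : ℝ) * q ^ (P + 1) ≤
                (3 * N / ((P + 1 : ℕ) : ℝ)) ^ (P + 1) * q ^ (P + 1) :=
                  mul_le_mul_of_nonneg_right h3 (pow_nonneg hq _)
              _ = (3 * N * q / (P + 1)) ^ (P + 1) := by
                  rw [← mul_pow]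
                  congr 1
                  push_cast
                  ring
  have h2 : (∑ T ∈ 𝒯, 2 ^ M T * Real.exp (-(N * x T / 2)) * W) +
      ∑ _p : Fin b, (3 * N * q / (P + 1)) ^ (P + 1) * W =
      ((∑ T ∈ 𝒯, 2 ^ M T * Real.exp (-(N * x T / 2))) +
        b * (3 * N * q / (P + 1)) ^ (P + 1)) * W := by
    rw [← Finset.sum_mul, Finset.sum_const, Finset.card_univ, Fintype.card_fin, nsmul_eq_mul]
    ring
  rw [h2] at h1
  nlinarith [mul_lt_mul_of_pos_right hlt hWpos]

end Vale.Agent.P181.TS.H963
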